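import Mathlib

set_option autoImplicit false

/-!
# P181, SZ, R1b: the coefficient core

A symmetric translation invariant polynomial in `a` points of `ℂ ^ m`, in terms of its
coefficients `c`.
-/

namespace Vale.Agent.P181.SZR1b

variable {m a : ℕ}

/-- The degree of the column `j`. -/
def col (v : Fin m × Fin a →₀ ℕ) (j : Fin a) : ℕ := ∑ i, v (i, j)

lemma col_add_single (u : Fin m × Fin a →₀ ℕ) (i : Fin m) (j k : Fin a) :
    col (u + Finsupp.single (i, j) 1) k = col u k + if k = j then 1 else 0 := by
  classical
  unfold col
  simp only [Finsupp.add_apply, Finset.sum_add_distrib, add_right_inj]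
  by_cases h : k = j
  · subst h
    rw [if_pos rfl, Finset.sum_eq_single i]
    · simp
    · intro b _ hb
      rw [Finsupp.single_apply, if_neg]
      intro h
      exact hb (Prod.ext_iff.1 h).1.symm
    · intro h
      exact absurd (Finset.mem_univ _) h
  · rw [if_neg h, Finset.sum_eq_zero]
    intro b _
    rw [Finsupp.single_apply, if_neg]
    intro h'
    exact h (Prod.ext_iff.1 h').2.symm

lemma exists_pos {v : Fin m × Fin a →₀ ℕ} {j : Fin a} (h : 0 < col v j) :
    ∃ (i : Fin m) (u : Fin m × Fin a →₀ ℕ), u + Finsupp.single (i, j) 1 = v := by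
  classical
  obtain ⟨i, _, hi⟩ := Finset.exists_ne_zero_of_sum_ne_zero (s := Finset.univ)
    (f := fun i => v (i, j)) (by unfold col at h; omega)
  refine ⟨i, v - Finsupp.single (i, j) 1, ?_⟩
  ext p
  simp only [Finsupp.add_apply, Finsupp.tsub_apply, Finsupp.single_apply]
  by_cases hp : (i, j) = p
  · subst hp
    rw [if_pos rfl]
    omega
  · rw [if_neg hp]
    omega

/-- The number of columns of degree `0`. -/
def zer (v : Fin m × Fin a →₀ ℕ) : ℕ := (Finset.univ.filter fun j => col v j = 0).card

/-- The number of columns of degree `1`. -/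
def uni (v : Fin m × Fin a →₀ ℕ) : ℕ := (Finset.univ.filter fun j => col v j = 1).card

/-- The number of nonzero columns. -/
def nzc (v : Fin m × Fin a →₀ ℕ) : ℕ := (Finset.univ.filter fun j => col v j ≠ 0).card

section core

variable (c : (Fin m × Fin a →₀ ℕ) → ℂ)
  (hrel : ∀ u i, ∑ j, ((u (i, j) : ℂ) + 1) * c (u + Finsupp.single (i, j) 1) = 0)
  (hsym : ∀ (e : Equiv.Perm (Fin a)) (v w : Fin m × Fin a →₀ ℕ),
    (∀ i j, w (i, e j) = v (i, j)) → c w = c v)

include hrel hsym in
/-- **(B1)** -/
theorem B1 (M : ℕ)
    (hM : ∀ v : Fin m × Fin a →₀ ℕ, (∀ j, col v j ≠ 1) → (∀ j, col v j < M) → c v = 0) :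
    ∀ (n : ℕ) (v : Fin m × Fin a →₀ ℕ), nzc v = n → (∀ j, col v j + uni v < M) → c v = 0 := by
  classical
  intro n
  induction n using Nat.strong_induction_on with
  | _ n ih =>
  intro v hn hv
  by_cases h1 : ∀ j, col v j ≠ 1
  · exact hM v h1 fun j => lt_of_le_of_lt (Nat.le_add_right _ _) (hv j)
  push Not at h1
  obtain ⟨j0, hj0⟩ := h1
  obtain ⟨i0, u, rfl⟩ := exists_pos (v := v) (j := j0) (by omega)
  have hc := fun j k => col_add_single u i0 j k
  have hu0 : col u j0 = 0 := by
    have := hc j0 j0
    rw [if_pos rfl] at this
    omega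
  have hux : ∀ j, col u j = 0 → ∀ i, u (i, j) = 0 := by
    intro j hj i
    have := Finset.sum_eq_zero_iff.1 hj i (Finset.mem_univ _)
    exact this
  -- the terms of the relation
  have hz : ∀ j, col u j = 0 → ((u (i0, j) : ℂ) + 1) * c (u + Finsupp.single (i0, j) 1) =
      c (u + Finsupp.single (i0, j0) 1) := by
    intro j hj
    rw [hux j hj i0, Nat.cast_zero, zero_add, one_mul]
    refine hsym (Equiv.swap j0 j) _ _ fun i k => ?_
    simp only [Finsupp.add_apply]
    by_cases hk0 : k = j0
    · subst hk0
      rw [Equiv.swap_apply_left, hux k hu0 i, hux j hj i]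
      by_cases hi : i0 = i
      · subst hi
        simp
      · rw [Finsupp.single_apply, Finsupp.single_apply, if_neg, if_neg]
        · intro h
          exact hi (Prod.ext_iff.1 h).1
        · intro h
          exact hi (Prod.ext_iff.1 h).1
    · by_cases hkj : k = j
      · subst hkj
        rw [Equiv.swap_apply_right, hux j0 hu0 i, hux k hj i, Finsupp.single_apply,
          Finsupp.single_apply, if_neg, if_neg]
        · intro h
          exact hk0 (Prod.ext_iff.1 h).2.symm
        · intro h
          exact hk0 (Prod.ext_iff.1 h).2
      · rw [Equiv.swap_apply_of_ne_of_ne hk0 hkj, Finsupp.single_apply, Finsupp.single_apply,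
          if_neg, if_neg]
        · intro h
          exact hk0 (Prod.ext_iff.1 h).2.symm
        · intro h
          exact hkj (Prod.ext_iff.1 h).2.symm
  have hnz : ∀ j, col u j ≠ 0 → c (u + Finsupp.single (i0, j) 1) = 0 := by
    intro j hj
    have hjj : j ≠ j0 := fun h => hj (h ▸ hu0)
    have hlt : nzc (u + Finsupp.single (i0, j) 1) < n := by
      rw [← hn]
      refine Finset.card_lt_card ?_
      rw [Finset.ssubset_iff_of_subset]
      · refine ⟨j0, ?_, ?_⟩
        · simp only [Finset.mem_filter, Finset.mem_univ, true_and]
          omega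
        · simp only [Finset.mem_filter, Finset.mem_univ, true_and, not_not]
          rw [hc j j0, if_neg hjj.symm, hu0]
      · intro k hk
        simp only [Finset.mem_filter, Finset.mem_univ, true_and] at hk ⊢
        rw [hc j k] at hk
        rw [hc j0 k]
        by_cases hkj : k = j
        · subst hkj
          omega
        · rw [if_neg hkj] at hk
          omega
    refine ih _ hlt _ rfl ?_
    -- the number of units drops
    have huni : uni (u + Finsupp.single (i0, j) 1) + 1 ≤ uni (u + Finsupp.single (i0, j0) 1) := by
      unfold uni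
      rw [← Finset.card_erase_add_one (s := Finset.univ.filter fun k =>
        col (u + Finsupp.single (i0, j0) 1) k = 1) (a := j0) (by simpa using hj0)]
      refine Nat.add_le_add_right (Finset.card_le_card ?_) 1
      intro k hk
      simp only [Finset.mem_filter, Finset.mem_univ, true_and, Finset.mem_erase] at hk ⊢
      rw [hc j k] at hk
      rw [hc j0 k]
      have hk0 : k ≠ j0 := by
        rintro rfl
        rw [if_neg hjj.symm, hu0] at hk
        omega
      refine ⟨hk0, ?_⟩
      rw [if_neg hk0]
      by_cases hkj : k = j
      · subst hkj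
        rw [if_pos rfl] at hk
        omega
      · rw [if_neg hkj] at hk
        exact hk
    intro k
    have h2 := hv k
    rw [hc j0 k] at h2
    rw [hc j k]
    by_cases hkj : k = j
    · subst hkj
      rw [if_pos rfl]
      rw [if_neg hjj] at h2
      omega
    · rw [if_neg hkj]
      split_ifs at h2 <;> omega
  have hr := hrel u i0
  rw [← Finset.sum_filter_add_sum_filter_not Finset.univ (fun j => col u j = 0)] at hr
  have h3 : ∑ j ∈ Finset.univ.filter (fun j => ¬ col u j = 0),
      ((u (i0, j) : ℂ) + 1) * c (u + Finsupp.single (i0, j) 1) = 0 :=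
    Finset.sum_eq_zero fun j hj => by rw [hnz j (Finset.mem_filter.1 hj).2, mul_zero]
  have h4 : ∑ j ∈ Finset.univ.filter (fun j => col u j = 0),
      ((u (i0, j) : ℂ) + 1) * c (u + Finsupp.single (i0, j) 1) =
      ((Finset.univ.filter (fun j => col u j = 0)).card : ℂ) *
        c (u + Finsupp.single (i0, j0) 1) := by
    rw [Finset.sum_congr rfl fun j hj => hz j (Finset.mem_filter.1 hj).2, Finset.sum_const,
      nsmul_eq_mul]
  rw [h3, h4, add_zero] at hr
  rcases mul_eq_zero.1 hr with h | h
  · exfalso
    rw [Nat.cast_eq_zero, Finset.card_eq_zero] at h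
    have : j0 ∈ Finset.univ.filter (fun j => col u j = 0) := by simp [hu0]
    rw [h] at this
    exact absurd this (Finset.notMem_empty _)
  · exact h

include hrel hsym in
/-- **(B2)** -/
theorem B2 (M : ℕ)
    (hM : ∀ v : Fin m × Fin a →₀ ℕ, (∀ j, col v j ≠ 1) → (∀ j, col v j < M) → c v = 0) :
    ∀ (n : ℕ) (v : Fin m × Fin a →₀ ℕ) (z : Fin a), zer v = n → col v z + uni v ≤ M →
      zer v + 3 ≤ col v z → (∀ i, i ≠ z → col v i + zer v + 2 ≤ col v z) → c v = 0 := by
  classical
  intro n
  induction n using Nat.strong_induction_on with
  | _ n ih =>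
  intro v z hn hzM hz3 hi2
  obtain ⟨i0, u, rfl⟩ := exists_pos (v := v) (j := z) (by omega)
  have hc := fun j k => col_add_single u i0 j k
  have hcz := hc z z
  rw [if_pos rfl] at hcz
  have hne : ∀ j, j ≠ z → c (u + Finsupp.single (i0, j) 1) = 0 := by
    intro j hj
    have hvj : col (u + Finsupp.single (i0, z) 1) j = col u j := by rw [hc z j, if_neg hj, add_zero]
    have hwz : col (u + Finsupp.single (i0, j) 1) z = col u z := by
      rw [hc j z, if_neg (Ne.symm hj), add_zero]
    have hwj : col (u + Finsupp.single (i0, j) 1) j = col u j + 1 := by rw [hc j j, if_pos rfl]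
    have hwk : ∀ k, k ≠ j → k ≠ z → col (u + Finsupp.single (i0, j) 1) k =
        col (u + Finsupp.single (i0, z) 1) k := by
      intro k h1 h2
      rw [hc j k, hc z k, if_neg h1, if_neg h2]
    by_cases h0 : col u j = 0
    · -- a zero column becomes a unit
      have hzer : zer (u + Finsupp.single (i0, j) 1) + 1 ≤ zer (u + Finsupp.single (i0, z) 1) := by
        unfold zer
        rw [← Finset.card_erase_add_one (s := Finset.univ.filter fun k =>
          col (u + Finsupp.single (i0, z) 1) k = 0) (a := j) (by simp [hvj, h0])]
        refine Nat.add_le_add_right (Finset.card_le_card ?_) 1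
        intro k hk
        simp only [Finset.mem_filter, Finset.mem_univ, true_and, Finset.mem_erase] at hk ⊢
        have hkj : k ≠ j := by
          rintro rfl
          omega
        have hkz : k ≠ z := by
          rintro rfl
          omega
        exact ⟨hkj, by rw [← hwk k hkj hkz]; exact hk⟩
      have huni : uni (u + Finsupp.single (i0, j) 1) ≤ uni (u + Finsupp.single (i0, z) 1) + 1 := by
        unfold uni
        refine (Finset.card_le_card (t := insert j (Finset.univ.filter fun k =>
          col (u + Finsupp.single (i0, z) 1) k = 1)) ?_).trans (Finset.card_insert_le _ _)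
        intro k hk
        simp only [Finset.mem_filter, Finset.mem_univ, true_and, Finset.mem_insert] at hk ⊢
        by_cases hkj : k = j
        · exact Or.inl hkj
        · right
          have hkz : k ≠ z := by
            rintro rfl
            omega
          rw [← hwk k hkj hkz]
          exact hk
      refine ih _ (by omega) _ z rfl (by omega) (by omega) ?_
      intro k hk
      by_cases hkj : k = j
      · subst hkj
        omega
      · rw [hwk k hkj hk]
        have := hi2 k hk
        omega
    · -- a nonzero column grows
      have huni : uni (u + Finsupp.single (i0, j) 1) ≤ uni (u + Finsupp.single (i0, z) 1) := by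
        unfold uni
        refine Finset.card_le_card ?_
        intro k hk
        simp only [Finset.mem_filter, Finset.mem_univ, true_and] at hk ⊢
        have hkj : k ≠ j := by
          rintro rfl
          omega
        have hkz : k ≠ z := by
          rintro rfl
          omega
        rw [← hwk k hkj hkz]
        exact hk
      refine B1 c hrel hsym M hM _ _ rfl ?_
      intro k
      by_cases hkz : k = z
      · subst hkz
        omega
      · by_cases hkj : k = j
        · subst hkj
          have := hi2 k hkz
          omega
        · rw [hwk k hkj hkz]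
          have := hi2 k hkz
          omega
  have hr := hrel u i0
  rw [Finset.sum_eq_single z (fun j _ hj => by rw [hne j hj, mul_zero])
    (fun h => absurd (Finset.mem_univ _) h)] at hr
  rcases mul_eq_zero.1 hr with h | h
  · exfalso
    have : ((u (i0, z) + 1 : ℕ) : ℂ) = 0 := by push_cast; exact h
    rw [Nat.cast_eq_zero] at this
    omega
  · exact h

end core

end Vale.Agent.P181.SZR1b
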