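import Vale.Agent.P181.SZ.Defs
import Vale.Agent.P181.SZR1b.CoreA

set_option autoImplicit false

/-!
# P181, SZ, R1b: the coefficient core, in terms of the leading size types
-/

open MvPolynomial

namespace Vale.Agent.P181.SZR1b

open Vale.Agent.P181.SZ (LBt)

variable {m a : ℕ}

/-- The sizes: the multiset of the nonzero column degrees. -/
def szs (v : Fin m × Fin a →₀ ℕ) : Multiset ℕ :=
  ((Finset.univ : Finset (Fin a)).val.map (col v)).filter (0 < ·)

lemma zer_add_card (v : Fin m × Fin a →₀ ℕ) : zer v + Multiset.card (szs v) = a := by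
  classical
  have h : Multiset.card (szs v) = (Finset.univ.filter fun j : Fin a => 0 < col v j).card := by
    unfold szs
    rw [Multiset.filter_map, Multiset.card_map]
    rfl
  rw [h]
  have h2 := Finset.card_filter_add_card_filter_not (s := (Finset.univ : Finset (Fin a)))
    (fun j => col v j = 0)
  rw [Finset.card_univ, Fintype.card_fin] at h2
  have h3 : (Finset.univ.filter fun j : Fin a => 0 < col v j) =
      Finset.univ.filter fun j : Fin a => ¬ col v j = 0 := by
    ext j
    simp [Nat.pos_iff_ne_zero]
  rw [h3]
  exact h2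

lemma mem_erase_szs (v : Fin m × Fin a →₀ ℕ) {i z : Fin a} (hiz : i ≠ z) (hi : 0 < col v i)
    (hz : 0 < col v z) : col v i ∈ (szs v).erase (col v z) := by
  classical
  have h1 : (Finset.univ : Finset (Fin a)).val = z ::ₘ (Finset.univ.erase z).val := by
    rw [Finset.erase_val, Multiset.cons_erase (Finset.mem_univ z)]
  have h2 : szs v = col v z ::ₘ (((Finset.univ.erase z : Finset (Fin a)).val.map
      (col v)).filter (0 < ·)) := by
    unfold szs
    rw [h1, Multiset.map_cons, Multiset.filter_cons_of_pos _ hz]
  rw [h2, Multiset.erase_cons_head, Multiset.mem_filter]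
  exact ⟨Multiset.mem_map_of_mem _ (Finset.mem_erase.2 ⟨hiz, Finset.mem_univ _⟩), hi⟩

/-- **The coefficient core of (R1).** -/
theorem core (c : (Fin m × Fin a →₀ ℕ) → ℂ)
    (hrel : ∀ u i, ∑ j, ((u (i, j) : ℂ) + 1) * c (u + Finsupp.single (i, j) 1) = 0)
    (hsym : ∀ (e : Equiv.Perm (Fin a)) (v w : Fin m × Fin a →₀ ℕ),
      (∀ i j, w (i, e j) = v (i, j)) → c w = c v)
    (h0 : ∀ v, (∀ j, col v j ≠ 1) → ¬ LBt a (szs v) → c v = 0) : ∀ v, c v = 0 := by
  classical
  have key : ∀ (M : ℕ) (v : Fin m × Fin a →₀ ℕ), (∀ j, col v j ≠ 1) → (∀ j, col v j < M) →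
      c v = 0 := by
    intro M
    induction M with
    | zero =>
      intro v h1 hM
      refine h0 v h1 ?_
      rintro (h | ⟨x, hx, -, -⟩)
      · have := zer_add_card v
        omega
      · unfold szs at hx
        rw [Multiset.mem_filter, Multiset.mem_map] at hx
        obtain ⟨⟨j, -, -⟩, -⟩ := hx
        exact absurd (hM j) (Nat.not_lt_zero _)
    | succ M ih =>
      intro v h1 hM
      by_cases hL : LBt a (szs v)
      · rcases hL with h | ⟨x, hx, hx3, hy⟩
        · have := zer_add_card v
          omega
        · have hx' := hx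
          unfold szs at hx'
          rw [Multiset.mem_filter, Multiset.mem_map] at hx'
          obtain ⟨⟨z, -, hzx⟩, hx0⟩ := hx'
          subst hzx
          have hzc := zer_add_card v
          have hu : uni v = 0 := by
            unfold uni
            rw [Finset.card_eq_zero, Finset.filter_eq_empty_iff]
            intro j _
            exact h1 j
          have hMz := hM z
          refine B2 c hrel hsym (col v z)
            (fun w hw1 hw2 => ih w hw1 fun j => by have := hw2 j; omega) _ v z rfl (by omega)
            (by omega) ?_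
          intro i hi
          by_cases hi0 : col v i = 0
          · omega
          · have := hy _ (mem_erase_szs v hi (by omega) hx0)
            omega
      · exact h0 v h1 hL
  intro v
  refine B1 c hrel hsym (∑ j, col v j + uni v + 1)
    (fun w h1 hw => key _ w h1 hw) _ v rfl fun j => ?_
  have := Finset.single_le_sum (f := fun j => col v j) (fun _ _ => Nat.zero_le _)
    (Finset.mem_univ j)
  omega

/-- **(R1b), the injectivity.** -/
theorem core_poly (F : MvPolynomial (Fin m × Fin a) ℂ) (h : ∀ i, ∑ j, pderiv (i, j) F = 0)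
    (hs : ∀ e : Equiv.Perm (Fin a), rename (fun p : Fin m × Fin a => (p.1, e p.2)) F = F)
    (h0 : ∀ v, (∀ j, col v j ≠ 1) → ¬ LBt a (szs v) → coeff v F = 0) : F = 0 := by
  classical
  ext v
  rw [coeff_zero]
  refine core (fun v => coeff v F) (fun u i => ?_) (fun e v w hvw => ?_) h0 v
  · have := congrArg (coeff u) (h i)
    rw [coeff_sum, coeff_zero] at this
    rw [← this]
    exact Finset.sum_congr rfl fun j _ => by rw [coeff_pderiv, mul_comm]
  · have hinj : Function.Injective (fun p : Fin m × Fin a => (p.1, e p.2)) := by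
      rintro ⟨i, j⟩ ⟨i', j'⟩ hp
      simp only [Prod.mk.injEq, EmbeddingLike.apply_eq_iff_eq] at hp
      exact Prod.ext hp.1 hp.2
    have hw : w = v.mapDomain (fun p : Fin m × Fin a => (p.1, e p.2)) := by
      ext ⟨i, j⟩
      have h1 : ((i, j) : Fin m × Fin a) =
          (fun p : Fin m × Fin a => (p.1, e p.2)) (i, e.symm j) := by simp
      rw [h1, Finsupp.mapDomain_apply hinj]
      exact hvw i (e.symm j)
    have h2 := congrArg (coeff w) (hs e)
    change coeff w F = coeff v F
    rw [← h2, hw, coeff_rename_mapDomain _ hinj]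

end Vale.Agent.P181.SZR1b
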