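import Vale.Agent.P181.SZR1b.Dim
import Vale.Agent.P181.SZR1b.Core
import Vale.Agent.P181.SZR1a.Main
import Vale.Agent.P181.SZT0.Tr

set_option autoImplicit false

/-!
# P181, SZ, R1: the upper bound
-/

open MvPolynomial

namespace Vale.Agent.P181.SZ.R1b

open Vale.Agent.P181.SZ

theorem coreS : CoreS := fun _ _ F hs h h0 => SZR1b.core_poly F h hs h0

theorem upperB : UpperB := upperB_of SZT0.transS coreS

theorem upperS : UpperS := upperS_of (fun a b m lam => R1a a b m lam) upperB

end Vale.Agent.P181.SZ.R1b
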