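import Vale.Agent.P181.SZR1b.Defs

set_option autoImplicit false

/-!
# P181, SZ, R1b: the dimension count

The column components of a translation invariant symmetric highest weight polynomial, and the
inequality (R1b) from (R6) (`TransS`) and the statement that the components of the non-leading
size types determine the polynomial.
-/

open MvPolynomial

namespace Vale.Agent.P181.SZ.R1b

open Vale.Agent.P181.T4 (HW rowOp rowOp_apply)
open Vale.Agent.P181.SZ

variable {m : ℕ} {σ : Type} [Fintype σ]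

/-- The column degrees of a monomial. -/
def cdeg (v : Fin m × σ →₀ ℕ) : σ → ℕ := fun j => ∑ i, v (i, j)

/-- The column weight of a variable. -/
noncomputable def colW (m : ℕ) (σ : Type) : Fin m × σ → (σ → ℕ) := by
  classical
  exact fun p => Pi.single p.2 1

lemma weight_colW (v : Fin m × σ →₀ ℕ) :
    Finsupp.weight (colW m σ) v = cdeg v := by
  classical
  funext j
  have h0 : v.sum (fun p c => c • colW m σ p) j = ∑ p ∈ v.support, (v p • colW m σ p) j := by
    rw [Finsupp.sum, Finset.sum_apply]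
  have h1 : ∑ p ∈ v.support, (v p • colW m σ p) j = ∑ p : Fin m × σ, (v p • colW m σ p) j := by
    apply Finset.sum_subset (Finset.subset_univ _)
    intro p _ hp
    rw [Finsupp.notMem_support_iff.1 hp, zero_smul, Pi.zero_apply]
  rw [Finsupp.weight_apply, h0, h1, Fintype.sum_prod_type_right, Finset.sum_eq_single j]
  · apply Finset.sum_congr rfl
    intro i _
    rw [Pi.smul_apply]
    have h2 : colW m σ (i, j) j = 1 := by
      unfold colW
      simp
    rw [h2, smul_eq_mul, mul_one]
  · intro k _ hk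
    apply Finset.sum_eq_zero
    intro i _
    rw [Pi.smul_apply]
    have h2 : colW m σ (i, k) j = 0 := by
      unfold colW
      simp [Pi.single_eq_of_ne (Ne.symm hk)]
    rw [h2, smul_zero]
  · intro h
    exact absurd (Finset.mem_univ _) h

/-- The component of column degrees `d`. -/
noncomputable def cmp (d : σ → ℕ) :
    MvPolynomial (Fin m × σ) ℂ →ₗ[ℂ] MvPolynomial (Fin m × σ) ℂ :=
  weightedHomogeneousComponent (colW m σ) d

lemma coeff_cmp [DecidableEq (σ → ℕ)] (d : σ → ℕ) (f : MvPolynomial (Fin m × σ) ℂ)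
    (v : Fin m × σ →₀ ℕ) : coeff v (cmp d f) = if cdeg v = d then coeff v f else 0 := by
  unfold cmp
  rw [coeff_weightedHomogeneousComponent, weight_colW]

lemma cdeg_add (u v : Fin m × σ →₀ ℕ) : cdeg (u + v) = cdeg u + cdeg v := by
  funext j
  simp [cdeg, Finset.sum_add_distrib]

lemma cdeg_single [DecidableEq σ] (i : Fin m) (j : σ) (c : ℕ) :
    cdeg (Finsupp.single (i, j) c) = Pi.single j c := by
  classical
  funext l
  unfold cdeg
  by_cases h : l = j
  · subst h
    rw [Pi.single_eq_same, Finset.sum_eq_single i]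
    · rw [Finsupp.single_eq_same]
    · intro k _ hk
      rw [Finsupp.single_eq_of_ne]
      intro h
      exact hk (Prod.ext_iff.1 h).1
    · intro h
      exact absurd (Finset.mem_univ _) h
  · rw [Pi.single_eq_of_ne h]
    apply Finset.sum_eq_zero
    intro k _
    rw [Finsupp.single_eq_of_ne]
    intro h'
    exact h (Prod.ext_iff.1 h').2

lemma coeff_rowOp [DecidableEq σ] (s i : Fin m) (f : MvPolynomial (Fin m × σ) ℂ)
    (v : Fin m × σ →₀ ℕ) :
    coeff v (rowOp s i f) = ∑ j, if v (s, j) = 0 then 0 else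
      coeff (v - Finsupp.single (s, j) 1 + Finsupp.single (i, j) 1) f *
        ((((v - Finsupp.single (s, j) 1 : Fin m × σ →₀ ℕ) (i, j) : ℕ) : ℂ) + 1) := by
  classical
  rw [rowOp_apply, coeff_sum]
  refine Finset.sum_congr rfl fun j _ => ?_
  rw [coeff_X_mul', coeff_pderiv]
  by_cases h : v (s, j) = 0
  · rw [if_pos h, if_neg (by rwa [Finsupp.notMem_support_iff])]
  · rw [if_neg h, if_pos (by rwa [Finsupp.mem_support_iff])]

lemma cmp_rowOp (d : σ → ℕ) (s i : Fin m) (f : MvPolynomial (Fin m × σ) ℂ) :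
    rowOp s i (cmp d f) = cmp d (rowOp s i f) := by
  classical
  apply MvPolynomial.ext
  intro v
  rw [coeff_cmp, coeff_rowOp, coeff_rowOp]
  have key : ∀ j, v (s, j) ≠ 0 →
      cdeg (v - Finsupp.single (s, j) 1 + Finsupp.single (i, j) 1) = cdeg v := by
    intro j hj
    have h1 : v = v - Finsupp.single (s, j) 1 + Finsupp.single (s, j) 1 := by
      rw [tsub_add_cancel_of_le]
      rw [Finsupp.single_le_iff]
      omega
    conv_rhs => rw [h1]
    rw [cdeg_add, cdeg_add, cdeg_single, cdeg_single]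
  by_cases h : cdeg v = d
  · rw [if_pos h]
    refine Finset.sum_congr rfl fun j _ => ?_
    by_cases h0 : v (s, j) = 0
    · rw [if_pos h0, if_pos h0]
    · rw [if_neg h0, if_neg h0, coeff_cmp, key j h0, if_pos h]
  · rw [if_neg h]
    refine Finset.sum_eq_zero fun j _ => ?_
    by_cases h0 : v (s, j) = 0
    · rw [if_pos h0]
    · rw [if_neg h0, coeff_cmp, key j h0, if_neg h, zero_mul]

/-- A permutation of the columns, on exponents. -/
noncomputable def pm (e : Equiv.Perm σ) (v : Fin m × σ →₀ ℕ) : Fin m × σ →₀ ℕ :=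
  v.mapDomain (fun p : Fin m × σ => (p.1, e p.2))

lemma pinj (e : Equiv.Perm σ) :
    Function.Injective (fun p : Fin m × σ => (p.1, e p.2)) := by
  rintro ⟨i, j⟩ ⟨k, l⟩ h
  have h1 := (Prod.ext_iff.1 h).1
  have h2 := e.injective (Prod.ext_iff.1 h).2
  exact Prod.ext h1 h2

lemma pm_apply (e : Equiv.Perm σ) (v : Fin m × σ →₀ ℕ) (i : Fin m) (j : σ) :
    pm e v (i, e j) = v (i, j) :=
  Finsupp.mapDomain_apply (pinj e) v (i, j)

lemma pm_apply' (e : Equiv.Perm σ) (v : Fin m × σ →₀ ℕ) (i : Fin m) (j : σ) :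
    pm e v (i, j) = v (i, e.symm j) := by
  have h := pm_apply e v i (e.symm j)
  rwa [e.apply_symm_apply] at h

lemma cdeg_pm (e : Equiv.Perm σ) (v : Fin m × σ →₀ ℕ) :
    cdeg (pm e v) = cdeg v ∘ e.symm := by
  funext j
  unfold cdeg
  refine Finset.sum_congr rfl fun i _ => pm_apply' e v i j

lemma pm_pm_symm (e : Equiv.Perm σ) (v : Fin m × σ →₀ ℕ) : pm e (pm e.symm v) = v := by
  ext ⟨i, j⟩
  rw [pm_apply', pm_apply', Equiv.symm_symm, e.apply_symm_apply]

lemma coeff_pm (e : Equiv.Perm σ) (f : MvPolynomial (Fin m × σ) ℂ) (v : Fin m × σ →₀ ℕ) :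
    coeff (pm e v) (rename (fun p : Fin m × σ => (p.1, e p.2)) f) = coeff v f :=
  coeff_rename_mapDomain _ (pinj e) f v

lemma rename_cmp (e : Equiv.Perm σ) (d : σ → ℕ) (hd : ∀ j, d (e j) = d j)
    (f : MvPolynomial (Fin m × σ) ℂ)
    (hf : rename (fun p : Fin m × σ => (p.1, e p.2)) f = f) :
    rename (fun p : Fin m × σ => (p.1, e p.2)) (cmp d f) = cmp d f := by
  classical
  apply MvPolynomial.ext
  intro v
  have h1 := coeff_pm e (cmp d f) (pm e.symm v)
  have h2 := coeff_pm e f (pm e.symm v)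
  rw [pm_pm_symm] at h1 h2
  rw [h1, coeff_cmp, coeff_cmp, cdeg_pm, Equiv.symm_symm, ← h2, hf]
  have h3 : cdeg v ∘ e = d ↔ cdeg v = d := by
    constructor
    · intro h
      funext j
      have h4 := congrFun h (e.symm j)
      rw [Function.comp_apply, e.apply_symm_apply] at h4
      rw [h4]
      have h5 := hd (e.symm j)
      rw [e.apply_symm_apply] at h5
      exact h5.symm
    · intro h
      funext j
      rw [Function.comp_apply, h]
      exact hd j
  simp only [h3]

lemma cmp_mem_PK {a b : ℕ} {mu : Fin m → ℕ} (d : Fin a → ℕ)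
    {f : MvPolynomial (Fin m × Fin a) ℂ} (hf : f ∈ TI a b m mu) :
    cmp d f ∈ PK m (Fin a) d mu := by
  classical
  obtain ⟨⟨h1, h2⟩, h3, -, -⟩ := hf
  refine ⟨⟨fun v hv => ?_, fun s i hsi => ?_⟩, fun v hv j => ?_, fun e he => ?_⟩
  · rw [coeff_cmp] at hv
    by_cases h : cdeg v = d
    · rw [if_pos h] at hv
      exact h1 v hv
    · rw [if_neg h] at hv
      exact absurd rfl hv
  · rw [cmp_rowOp, h2 s i hsi, map_zero]
  · rw [coeff_cmp] at hv
    by_cases h : cdeg v = d
    · exact congrFun h j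
    · rw [if_neg h] at hv
      exact absurd rfl hv
  · exact rename_cmp e d he f (h3 e)

instance finiteDimensional_PK (m : ℕ) (σ : Type) [Fintype σ] (d : σ → ℕ) (mu : Fin m → ℕ) :
    FiniteDimensional ℂ (PK m σ d mu) := by
  have h : PK m σ d mu ≤ HW m σ mu := fun f hf => hf.1
  exact FiniteDimensional.of_injective (Submodule.inclusion h) (Submodule.inclusion_injective h)

/-- Two families with the same multiset of values differ by a permutation. -/
theorem exists_perm_of_map_eq {ι α : Type*} [Fintype ι] (f g : ι → α)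
    (h : Finset.univ.val.map f = Finset.univ.val.map g) : ∃ τ : Equiv.Perm ι, g = f ∘ τ := by
  classical
  have hc : ∀ w : α, Fintype.card {j // g j = w} = Fintype.card {j // f j = w} := by
    intro w
    have h1 := congrArg (Multiset.count w) h
    rw [Multiset.count_map, Multiset.count_map] at h1
    rw [Fintype.card_subtype, Fintype.card_subtype, Finset.card_def, Finset.card_def,
      Finset.filter_val, Finset.filter_val]
    simp only [eq_comm] at h1 ⊢
    exact h1
  refine ⟨Equiv.ofFiberEquiv (fun w => Fintype.equivOfCardEq (hc w)), ?_⟩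
  funext j
  exact (Equiv.ofFiberEquiv_map _ j).symm

/-- The size type of a family of column degrees. -/
def sz {a : ℕ} (d : Fin a → ℕ) : Multiset ℕ :=
  ((Finset.univ : Finset (Fin a)).val.map d).filter (0 < ·)

lemma sz_add {a : ℕ} (d : Fin a → ℕ) :
    (Finset.univ : Finset (Fin a)).val.map d = sz d +
      Multiset.replicate (a - Multiset.card (sz d)) 0 := by
  have h2 := Multiset.filter_add_not (fun w : ℕ => 0 < w)
    ((Finset.univ : Finset (Fin a)).val.map d)
  have h3 : ((Finset.univ : Finset (Fin a)).val.map d).filter (fun w : ℕ => ¬ (0 < w)) =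
      Multiset.replicate (a - Multiset.card (sz d)) 0 := by
    rw [Multiset.eq_replicate]
    constructor
    · have h4 := congrArg Multiset.card h2
      rw [Multiset.card_add, Multiset.card_map] at h4
      have h5 : Multiset.card (Finset.univ : Finset (Fin a)).val = a := Finset.card_fin a
      rw [h5] at h4
      unfold sz
      omega
    · intro w hw
      have := (Multiset.mem_filter.1 hw).2
      omega
  rw [← h3]
  exact h2.symm

lemma sz_card_le {a : ℕ} (d : Fin a → ℕ) : Multiset.card (sz d) ≤ a := by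
  have h1 : Multiset.card ((Finset.univ : Finset (Fin a)).val.map d) = a := by
    rw [Multiset.card_map]
    exact Finset.card_fin a
  exact (Multiset.card_le_card (Multiset.filter_le _ _)).trans h1.le

/-- A family with a prescribed size type. -/
lemma exists_sz {a : ℕ} (k : Multiset ℕ) (hk : Multiset.card k ≤ a) (h0 : ∀ x ∈ k, 0 < x) :
    ∃ d : Fin a → ℕ, sz d = k := by
  obtain ⟨l, hl⟩ : ∃ l : List ℕ, (l : Multiset ℕ) =
      k + Multiset.replicate (a - Multiset.card k) 0 := Quot.exists_rep _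
  have hlen : l.length = a := by
    have h1 := congrArg Multiset.card hl
    rw [Multiset.coe_card, Multiset.card_add, Multiset.card_replicate] at h1
    omega
  subst hlen
  refine ⟨l.get, ?_⟩
  unfold sz
  rw [Fin.univ_val_map, List.ofFn_get, hl, Multiset.filter_add,
    Multiset.filter_eq_self.2 h0, Multiset.filter_eq_nil.2, add_zero]
  intro x hx
  have := Multiset.eq_of_mem_replicate hx
  omega

lemma sum_sz {a : ℕ} (d : Fin a → ℕ) : (sz d).sum = ∑ j, d j := by
  have h := congrArg Multiset.sum (sz_add d)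
  rw [Multiset.sum_add, Multiset.sum_replicate, smul_zero, add_zero] at h
  exact h.symm

lemma mem_PT {w : ℕ} {k : Multiset ℕ} : k ∈ PT w ↔ k.sum = w ∧ ∀ x ∈ k, 2 ≤ x := by
  classical
  unfold PT
  rw [Finset.mem_filter, Finset.mem_image]
  constructor
  · rintro ⟨⟨p, -, rfl⟩, h2⟩
    exact ⟨p.parts_sum, h2⟩
  · rintro ⟨h1, h2⟩
    exact ⟨⟨⟨k, fun {x} hx => by have := h2 x hx; omega, h1⟩, Finset.mem_univ _, rfl⟩, h2⟩

/-- The components of the non-leading size types determine the polynomial (R1, (A) and (B)). -/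
def CoreS : Prop := ∀ (a m : ℕ) (F : MvPolynomial (Fin m × Fin a) ℂ),
  (∀ e : Equiv.Perm (Fin a), rename (fun p : Fin m × Fin a => (p.1, e p.2)) F = F) →
  (∀ i : Fin m, ∑ j : Fin a, pderiv (i, j) F = 0) →
  (∀ v : Fin m × Fin a →₀ ℕ, (∀ j, ∑ i, v (i, j) ≠ 1) →
    ¬ LBt a (((Finset.univ : Finset (Fin a)).val.map fun j => ∑ i, v (i, j)).filter (0 < ·)) →
    coeff v F = 0) → F = 0

theorem upperB_of (hT : TransS) (hC : CoreS) : UpperB := by
  classical
  intro a b m mu
  set I := (PT (∑ i, mu i)).filter (fun k => (∀ x ∈ k, x ≤ b) ∧ ¬ LBt a k) with hI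
  have hex : ∀ k : I, ∃ d : Fin a → ℕ, sz d = k.1 := by
    rintro ⟨k, hk⟩
    rw [hI, Finset.mem_filter, mem_PT] at hk
    apply exists_sz k
    · by_contra h
      exact hk.2.2 (Or.inl (not_le.1 h))
    · intro x hx
      have := hk.1.2 x hx
      omega
  choose D hD using hex
  have hnn : ∀ k : I, Module.finrank ℂ (PK m (Fin a) (D k) mu) = nn m mu k.1 := by
    intro k
    rw [hT m (Fin a) (D k) mu]
    exact congrArg _ (hD k)
  let Φ : TI a b m mu →ₗ[ℂ] ((k : I) → PK m (Fin a) (D k) mu) :=
    LinearMap.pi fun k => ((cmp (D k)).comp (TI a b m mu).subtype).codRestrict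
      (PK m (Fin a) (D k) mu) fun f => cmp_mem_PK (D k) f.2
  have hΦ : ∀ (f : TI a b m mu) (k : I), ((Φ f k : PK m (Fin a) (D k) mu) :
      MvPolynomial (Fin m × Fin a) ℂ) = cmp (D k) f.1 := fun f k => rfl
  have hinj : Function.Injective Φ := by
    rw [← LinearMap.ker_eq_bot, LinearMap.ker_eq_bot']
    intro f hf
    apply Subtype.ext
    obtain ⟨⟨h1, h2⟩, h3, h4, h5⟩ := f.2
    apply hC a m f.1 h3 h5
    intro v hv1 hv2
    by_contra hv
    have hdeg : ∑ j, cdeg v j = ∑ i, mu i := by
      unfold cdeg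
      rw [Finset.sum_comm]
      exact Finset.sum_congr rfl fun i _ => h1 v hv i
    have hk : sz (cdeg v) ∈ I := by
      rw [hI, Finset.mem_filter, mem_PT]
      refine ⟨⟨by rw [sum_sz, hdeg], fun x hx => ?_⟩, fun x hx => ?_, hv2⟩
      · obtain ⟨h6, h7⟩ := Multiset.mem_filter.1 hx
        obtain ⟨j, -, hj⟩ := Multiset.mem_map.1 h6
        have h8 : cdeg v j ≠ 1 := hv1 j
        omega
      · obtain ⟨h6, h7⟩ := Multiset.mem_filter.1 hx
        obtain ⟨j, -, hj⟩ := Multiset.mem_map.1 h6
        rw [← hj]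
        exact h4 v hv j
    have hD' := hD ⟨sz (cdeg v), hk⟩
    obtain ⟨e, he⟩ := exists_perm_of_map_eq (cdeg v) (D ⟨sz (cdeg v), hk⟩) (by
      rw [sz_add (cdeg v), sz_add (D ⟨sz (cdeg v), hk⟩), hD'])
    have h6 := coeff_pm e.symm f.1 v
    rw [h3 e.symm] at h6
    have h7 : coeff (pm e.symm v) (cmp (D ⟨sz (cdeg v), hk⟩) f.1) = 0 := by
      rw [← hΦ f ⟨sz (cdeg v), hk⟩, hf]
      rfl
    rw [coeff_cmp, cdeg_pm, Equiv.symm_symm, if_pos he.symm, h6] at h7
    exact hv h7
  calc Module.finrank ℂ (TI a b m mu)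
      ≤ Module.finrank ℂ ((k : I) → PK m (Fin a) (D k) mu) :=
        LinearMap.finrank_le_finrank_of_injective hinj
    _ = ∑ k : I, Module.finrank ℂ (PK m (Fin a) (D k) mu) := Module.finrank_pi_fintype ℂ
    _ = ∑ k : I, nn m mu k.1 := Finset.sum_congr rfl fun k _ => hnn k
    _ = ∑ k ∈ I, nn m mu k := Finset.sum_coe_sort I (fun k => nn m mu k)

end Vale.Agent.P181.SZ.R1b
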