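import Vale.Agent.P181.SZ.Defs
import Vale.Agent.P181.SZR1a.TI

set_option autoImplicit false

/-!
# P181, SZ, R1b: translation invariant symmetric highest weight polynomials
-/

open MvPolynomial

namespace Vale.Agent.P181.SZ

open Vale.Agent.P181.T4 (HW)
open Vale.Agent.P181.H280 (plethMult)

/-- **(R1a)** -/
def UpperA : Prop := ∀ (a b m : ℕ) (lam : Fin (m + 1) → ℕ),
  plethMult a b (m + 1) lam ≤ Module.finrank ℂ (TI a b m (tl lam))

open scoped Classical in
/-- **(R1b)** -/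
def UpperB : Prop := ∀ (a b m : ℕ) (mu : Fin m → ℕ),
  Module.finrank ℂ (TI a b m mu) ≤
    ∑ k ∈ (PT (∑ i, mu i)).filter (fun k => (∀ x ∈ k, x ≤ b) ∧ ¬ LBt a k), nn m mu k

theorem upperS_of (hA : UpperA) (hB : UpperB) : UpperS := fun a b m lam =>
  (hA a b m lam).trans (hB a b m (tl lam))

/-- **(R2a)** -/
def LowerA : Prop := ∀ (a b m : ℕ) (lam : Fin (m + 1) → ℕ), ∑ i, lam i = a * b →
  Module.finrank ℂ (TI b a m (tl lam)) ≤ plethMult b a (m + 1) lam

open scoped Classical in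
/-- **(R2b)** -/
def LowerB : Prop := ∀ (a b m : ℕ) (mu : Fin m → ℕ),
  ∑ k ∈ (PT (∑ i, mu i)).filter (fun k => (∀ x ∈ k, x ≤ a) ∧ 3 * Multiset.card k ≤ b),
    nn m mu k ≤ Module.finrank ℂ (TI b a m mu)

theorem lowerS_of (hA : LowerA) (hB : LowerB) : LowerS := fun a b m lam h =>
  (hB a b m (tl lam)).trans (hA a b m lam h)

end Vale.Agent.P181.SZ
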