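import Vale.Agent.P181.SZ.Defs

set_option autoImplicit false

/-!
# P181, SZ, R1b: the part of given column degrees
-/

open MvPolynomial

namespace Vale.Agent.P181.SZR1b

open Vale.Agent.P181.T4 (HW rowOp rowOp_apply mem_HW)
open Vale.Agent.P181.SZ

variable {m a : ℕ}

/-- The column weight of a variable. -/
def cW (m a : ℕ) : Fin m × Fin a → (Fin a → ℕ) := fun p => Pi.single p.2 1

lemma weight_cW (v : Fin m × Fin a →₀ ℕ) (j : Fin a) :
    Finsupp.weight (cW m a) v j = ∑ i, v (i, j) := by
  classical
  have h0 : v.sum (fun p c => c • cW m a p) j = ∑ p ∈ v.support, (v p • cW m a p) j := by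
    rw [Finsupp.sum, Finset.sum_apply]
  have h1 : ∑ p ∈ v.support, (v p • cW m a p) j = ∑ p : Fin m × Fin a, (v p • cW m a p) j := by
    apply Finset.sum_subset (Finset.subset_univ _)
    intro p _ hp
    rw [Finsupp.notMem_support_iff.1 hp, zero_smul, Pi.zero_apply]
  rw [Finsupp.weight_apply, h0, h1, Fintype.sum_prod_type]
  apply Finset.sum_congr rfl
  intro i _
  rw [Finset.sum_eq_single j]
  · simp [cW]
  · intro k _ hk
    simp [cW, Pi.single_eq_of_ne (Ne.symm hk)]
  · intro h
    exact absurd (Finset.mem_univ _) h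

/-- The part of column degrees `d`. -/
noncomputable def cp (m a : ℕ) (d : Fin a → ℕ) :
    MvPolynomial (Fin m × Fin a) ℂ →ₗ[ℂ] MvPolynomial (Fin m × Fin a) ℂ :=
  weightedHomogeneousComponent (cW m a) d

lemma coeff_cp (d : Fin a → ℕ) (f : MvPolynomial (Fin m × Fin a) ℂ) (v : Fin m × Fin a →₀ ℕ) :
    coeff v (cp m a d f) = if (∀ j, ∑ i, v (i, j) = d j) then coeff v f else 0 := by
  classical
  rw [cp, coeff_weightedHomogeneousComponent]
  refine if_congr ?_ rfl rfl
  constructor
  · intro h j
    rw [← weight_cW, h]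
  · intro h
    funext j
    rw [weight_cW, h j]

lemma cp_monomial_of_eq (d : Fin a → ℕ) (v : Fin m × Fin a →₀ ℕ) (r : ℂ)
    (h : ∀ j, ∑ i, v (i, j) = d j) : cp m a d (monomial v r) = monomial v r := by
  classical
  ext u
  rw [coeff_cp, coeff_monomial]
  by_cases hu : v = u
  · subst hu
    rw [if_pos h]
  · rw [if_neg hu, ite_self]

lemma cp_monomial_of_ne (d : Fin a → ℕ) (v : Fin m × Fin a →₀ ℕ) (r : ℂ)
    (h : ¬ ∀ j, ∑ i, v (i, j) = d j) : cp m a d (monomial v r) = 0 := by
  classical
  ext u
  rw [coeff_cp, coeff_monomial, coeff_zero]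
  by_cases hu : v = u
  · subst hu
    rw [if_neg h]
  · rw [if_neg hu, ite_self]

lemma cp_rowOp (d : Fin a → ℕ) (s i : Fin m) (f : MvPolynomial (Fin m × Fin a) ℂ) :
    rowOp s i (cp m a d f) = cp m a d (rowOp s i f) := by
  classical
  induction f using MvPolynomial.induction_on' with
  | monomial v r =>
    have h1 : ∀ j, X (s, j) * pderiv (i, j) (monomial v r) =
        monomial (Finsupp.single (s, j) 1 + (v - Finsupp.single (i, j) 1)) (r * v (i, j)) := by
      intro j
      rw [pderiv_monomial, X, monomial_mul, one_mul]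
    have h2 : ∀ j k, v (i, j) ≠ 0 → ∑ i', (Finsupp.single (s, j) 1 +
        (v - Finsupp.single (i, j) 1) : Fin m × Fin a →₀ ℕ) (i', k) = ∑ i', v (i', k) := by
      intro j k hj
      rw [← weight_cW, ← weight_cW]
      have h3 : v = Finsupp.single (i, j) 1 + (v - Finsupp.single (i, j) 1) := by
        ext p
        simp only [Finsupp.add_apply, Finsupp.tsub_apply, Finsupp.single_apply]
        split_ifs with h
        · subst h
          omega
        · omega
      conv_rhs => rw [h3]
      rw [map_add, map_add, Finsupp.weight_single, Finsupp.weight_single]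
      rfl
    by_cases hv : ∀ j, ∑ i, v (i, j) = d j
    · rw [cp_monomial_of_eq d v r hv, rowOp_apply, map_sum]
      refine Finset.sum_congr rfl fun j _ => ?_
      rw [h1 j]
      by_cases hj : v (i, j) = 0
      · rw [hj, Nat.cast_zero, mul_zero, monomial_zero, map_zero]
      · rw [cp_monomial_of_eq]
        intro k
        rw [h2 j k hj, hv k]
    · rw [cp_monomial_of_ne d v r hv, map_zero, rowOp_apply, map_sum]
      symm
      refine Finset.sum_eq_zero fun j _ => ?_
      rw [h1 j]
      by_cases hj : v (i, j) = 0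
      · rw [hj, Nat.cast_zero, mul_zero, monomial_zero, map_zero]
      · rw [cp_monomial_of_ne]
        intro h
        exact hv fun k => by rw [← h2 j k hj, h k]
  | add p q hp hq => rw [map_add, map_add, map_add, map_add, hp, hq]

lemma cp_rename (d : Fin a → ℕ) (e : Equiv.Perm (Fin a)) (he : ∀ j, d (e j) = d j)
    (f : MvPolynomial (Fin m × Fin a) ℂ) :
    rename (fun p : Fin m × Fin a => (p.1, e p.2)) (cp m a d f) =
      cp m a d (rename (fun p : Fin m × Fin a => (p.1, e p.2)) f) := by
  classical
  have hinj : Function.Injective (fun p : Fin m × Fin a => (p.1, e p.2)) := by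
    rintro ⟨i, j⟩ ⟨i', j'⟩ hp
    simp only [Prod.mk.injEq, EmbeddingLike.apply_eq_iff_eq] at hp
    exact Prod.ext hp.1 hp.2
  induction f using MvPolynomial.induction_on' with
  | monomial v r =>
    have h1 : ∀ i j, (v.mapDomain (fun p : Fin m × Fin a => (p.1, e p.2))) (i, e j) = v (i, j) :=
      fun i j => Finsupp.mapDomain_apply hinj v (i, j)
    rw [rename_monomial]
    by_cases hv : ∀ j, ∑ i, v (i, j) = d j
    · rw [cp_monomial_of_eq d v r hv, rename_monomial, cp_monomial_of_eq]
      intro j
      obtain ⟨j, rfl⟩ := e.surjective j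
      rw [he, ← hv j]
      exact Finset.sum_congr rfl fun i _ => h1 i j
    · rw [cp_monomial_of_ne d v r hv, map_zero, cp_monomial_of_ne]
      intro h
      apply hv
      intro j
      rw [← he j, ← h (e j)]
      exact Finset.sum_congr rfl fun i _ => (h1 i j).symm
  | add p q hp hq => rw [map_add, map_add, map_add, map_add, hp, hq]

/-- The part of column degrees `d` of a symmetric highest weight polynomial. -/
lemma cp_mem_PK {mu : Fin m → ℕ} {f : MvPolynomial (Fin m × Fin a) ℂ}
    (hf : f ∈ HW m (Fin a) mu)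
    (hs : ∀ e : Equiv.Perm (Fin a), rename (fun p : Fin m × Fin a => (p.1, e p.2)) f = f)
    (d : Fin a → ℕ) : cp m a d f ∈ PK m (Fin a) d mu := by
  refine ⟨⟨fun v hv => ?_, fun s i h => ?_⟩, fun v hv j => ?_, fun e he => ?_⟩
  · rw [coeff_cp] at hv
    exact hf.1 v fun h => hv (by rw [h, ite_self])
  · rw [cp_rowOp, hf.2 s i h, map_zero]
  · rw [coeff_cp] at hv
    by_contra h
    exact hv (if_neg fun h' => h (h' j))
  · rw [cp_rename d e he, hs e]

end Vale.Agent.P181.SZR1b
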