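import Vale.Agent.P181.SZR1a.TI
import Vale.Agent.P181.SZR1b.Core
import Vale.Agent.P181.SZR1b.Comp
import Vale.Agent.P181.SZR4.Few
import Vale.Agent.P181.SZT0.Tr

set_option autoImplicit false

/-!
# P181, SZ, R1b: the dimension count
-/

open MvPolynomial

namespace Vale.Agent.P181.SZR1b

open Vale.Agent.P181.T4 (HW rowOp rowOp_apply mem_HW)
open Vale.Agent.P181.SZ
open Vale.Agent.P181.SZR4 (pad)

variable {m a : ℕ}

lemma map_pad (k : Multiset ℕ) (hk : Multiset.card k ≤ a) :
    (Finset.univ : Finset (Fin a)).val.map (pad a k) =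
      k + Multiset.replicate (a - Multiset.card k) 0 := by
  have hl : k.toList.length ≤ a := by rw [Multiset.length_toList]; exact hk
  rw [Fin.univ_val_map]
  conv_rhs => rw [← Multiset.coe_toList k]
  rw [← Multiset.coe_replicate, Multiset.coe_add, Multiset.coe_card]
  congr 1
  apply List.ext_getElem
  · rw [List.length_ofFn, List.length_append, List.length_replicate]
    omega
  · intro i h1 h2
    rw [List.getElem_ofFn]
    unfold pad
    by_cases hi : i < k.toList.length
    · rw [List.getD_eq_getElem _ _ hi, List.getElem_append_left hi]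
    · rw [List.getD_eq_default _ _ (not_lt.1 hi), List.getElem_append_right (not_lt.1 hi),
        List.getElem_replicate]

lemma eq_filter_add (M : Multiset ℕ) :
    M = M.filter (0 < ·) + Multiset.replicate
      (Multiset.card M - Multiset.card (M.filter (0 < ·))) 0 := by
  have h := Multiset.filter_add_not (0 < ·) M
  have h2 : M.filter (fun x => ¬ 0 < x) =
      Multiset.replicate (Multiset.card (M.filter (fun x => ¬ 0 < x))) 0 := by
    refine Multiset.eq_replicate_card.2 fun x hx => ?_
    have := (Multiset.mem_filter.1 hx).2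
    omega
  have h3 := congrArg Multiset.card h
  rw [Multiset.card_add] at h3
  have h4 : Multiset.card M - Multiset.card (M.filter (0 < ·)) =
      Multiset.card (M.filter (fun x => ¬ 0 < x)) := by omega
  rw [h4, ← h2, h]

/-- The permutation which sorts the columns of `v`. -/
lemma exists_sort (v : Fin m × Fin a →₀ ℕ) :
    ∃ e : Equiv.Perm (Fin a), ∀ j, pad a (szs v) (e j) = col v j := by
  have hc := zer_add_card v
  refine SZT0.exists_equiv (col v) (pad a (szs v)) ?_
  rw [map_pad (szs v) (by omega)]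
  conv_lhs => rw [eq_filter_add (Finset.univ.val.map (col v))]
  have h1 : Multiset.card ((Finset.univ : Finset (Fin a)).val.map (col v)) = a := by
    rw [Multiset.card_map, Finset.card_val, Finset.card_univ, Fintype.card_fin]
  rw [h1]
  rfl

lemma sum_szs (v : Fin m × Fin a →₀ ℕ) : (szs v).sum = ∑ j, col v j := by
  have h := congrArg Multiset.sum (eq_filter_add ((Finset.univ : Finset (Fin a)).val.map (col v)))
  rw [Multiset.sum_add, Multiset.sum_replicate, smul_zero, add_zero] at h
  exact h.symm

open scoped Classical in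
/-- **(R1b)** -/
theorem r1b (hT : TransS) (a b m : ℕ) (mu : Fin m → ℕ) :
    Module.finrank ℂ (TI a b m mu) ≤
      ∑ k ∈ (PT (∑ i, mu i)).filter (fun k => (∀ x ∈ k, x ≤ b) ∧ ¬ LBt a k), nn m mu k := by
  set S := (PT (∑ i, mu i)).filter (fun k => (∀ x ∈ k, x ≤ b) ∧ ¬ LBt a k) with hS
  have hmem : ∀ k ∈ S, Multiset.card k ≤ a ∧ ∀ x ∈ k, 0 < x := by
    intro k hk
    rw [hS, Finset.mem_filter, PT, Finset.mem_filter] at hk
    refine ⟨?_, fun x hx => lt_of_lt_of_le two_pos (hk.1.2 x hx)⟩
    by_contra h
    exact hk.2.2 (Or.inl (not_le.1 h))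
  have hnn : ∀ k ∈ S, nn m mu k = Module.finrank ℂ (PK m (Fin a) (pad a k) mu) := by
    intro k hk
    rw [hT m (Fin a) (pad a k) mu, map_pad k (hmem k hk).1, Multiset.filter_add,
      Multiset.filter_eq_self.2 (hmem k hk).2]
    have : (Multiset.replicate (a - Multiset.card k) 0).filter (0 < ·) = 0 :=
      Multiset.filter_eq_nil.2 fun x hx => by
        rw [Multiset.eq_of_mem_replicate hx]
        exact lt_irrefl 0
    rw [this, add_zero]
  rw [Finset.sum_congr rfl hnn, ← Finset.sum_coe_sort S]
  let L : TI a b m mu →ₗ[ℂ] (∀ k : S, PK m (Fin a) (pad a k) mu) :=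
    { toFun := fun F k => ⟨cp m a (pad a k) F, cp_mem_PK F.2.1 F.2.2.1 _⟩
      map_add' := fun F G => by
        funext k
        exact Subtype.ext (map_add (cp m a (pad a k)) (F : MvPolynomial (Fin m × Fin a) ℂ) G)
      map_smul' := fun c F => by
        funext k
        exact Subtype.ext (map_smul (cp m a (pad a k)) c (F : MvPolynomial (Fin m × Fin a) ℂ)) }
  have hL : Function.Injective L := by
    rw [← LinearMap.ker_eq_bot, LinearMap.ker_eq_bot']
    intro F hF
    apply Subtype.ext
    refine core_poly (F : MvPolynomial (Fin m × Fin a) ℂ) F.2.2.2.2 F.2.2.1 fun v h1 hL => ?_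
    by_contra hv
    have hkS : szs v ∈ S := by
      have hpos : ∀ x ∈ szs v, 2 ≤ x ∧ x ≤ b := by
        intro x hx
        unfold szs at hx
        rw [Multiset.mem_filter, Multiset.mem_map] at hx
        obtain ⟨⟨j, -, rfl⟩, hx0⟩ := hx
        have := h1 j
        exact ⟨by omega, F.2.2.2.1 v hv j⟩
      rw [hS, Finset.mem_filter, PT, Finset.mem_filter, Finset.mem_image]
      refine ⟨⟨⟨⟨szs v, fun {x} hx => lt_of_lt_of_le two_pos (hpos x hx).1, ?_⟩,
        Finset.mem_univ _, rfl⟩, fun x hx => (hpos x hx).1⟩, fun x hx => (hpos x hx).2, hL⟩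
      rw [sum_szs]
      unfold col
      rw [Finset.sum_comm]
      exact Finset.sum_congr rfl fun i _ => F.2.1.1 v hv i
    obtain ⟨e, he⟩ := exists_sort v
    have hinj : Function.Injective (fun p : Fin m × Fin a => (p.1, e p.2)) := by
      rintro ⟨i, j⟩ ⟨i', j'⟩ hp
      simp only [Prod.mk.injEq, EmbeddingLike.apply_eq_iff_eq] at hp
      exact Prod.ext hp.1 hp.2
    have hc : coeff (v.mapDomain (fun p : Fin m × Fin a => (p.1, e p.2)))
        (F : MvPolynomial (Fin m × Fin a) ℂ) = coeff v (F : MvPolynomial (Fin m × Fin a) ℂ) := by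
      conv_lhs => rw [← F.2.2.1 e]
      exact coeff_rename_mapDomain _ hinj _ v
    have h2 : coeff (v.mapDomain (fun p : Fin m × Fin a => (p.1, e p.2)))
        (cp m a (pad a (szs v)) (F : MvPolynomial (Fin m × Fin a) ℂ)) = 0 := by
      have h3 : cp m a (pad a (szs v)) (F : MvPolynomial (Fin m × Fin a) ℂ) = 0 :=
        congrArg Subtype.val (congrFun hF ⟨szs v, hkS⟩)
      rw [h3, coeff_zero]
    rw [coeff_cp, if_pos, hc] at h2
    · exact hv h2
    · intro j
      obtain ⟨j, rfl⟩ := e.surjective j
      rw [he j]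
      exact Finset.sum_congr rfl fun i _ => Finsupp.mapDomain_apply hinj v (i, j)
  rw [← Module.finrank_pi_fintype ℂ]
  exact LinearMap.finrank_le_finrank_of_injective hL

end Vale.Agent.P181.SZR1b
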